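import Vale.Agent.P245.M9.Bdd

/-!
# P245, M9: from compactly supported, normalised measures to the general statement
-/

namespace Vale.Agent.P245.M9

open MeasureTheory ProbabilityTheory Filter Topology Module
open scoped RealInnerProductSpace ENNReal NNReal

variable {n : ℕ}

/-- A log-concave density gives `IsSLC 0`. -/
lemma slc_of_logconcave {ρ : Rn n → ℝ} (hρm : Measurable ρ) (hρ0 : ∀ x, 0 ≤ ρ x)
    (hc : ConcaveOn ℝ {x | 0 < ρ x} fun x => Real.log (ρ x)) :
    IsSLC 0 (volume.withDensity fun x => ENNReal.ofReal (ρ x)) := by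
  refine ⟨ρ, hρm, hρ0, rfl, fun x y l hl0 hl1 => ?_⟩
  simp only [zero_div, zero_mul, Real.exp_zero, mul_one]
  rcases eq_or_lt_of_le (hρ0 x) with hx | hx
  · rw [← hx, Real.zero_rpow (sub_pos.2 hl1).ne', zero_mul]; exact hρ0 _
  rcases eq_or_lt_of_le (hρ0 y) with hy | hy
  · rw [← hy, Real.zero_rpow hl0.ne', mul_zero]; exact hρ0 _
  have hz : 0 < ρ ((1 - l) • x + l • y) := hc.1 hx hy (sub_pos.2 hl1).le hl0.le (by ring)
  have h := hc.2 hx hy (sub_pos.2 hl1).le hl0.le (by ring)
  simp only [smul_eq_mul] at h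
  rw [Real.rpow_def_of_pos hx, Real.rpow_def_of_pos hy, ← Real.exp_add]
  conv_rhs => rw [← Real.exp_log hz]
  exact Real.exp_le_exp.2 (by linarith)

/-- Image of a log-concave measure under a dilation. -/
lemma slc_map_smul {μ : Measure (Rn n)} (h : IsSLC 0 μ) {a : ℝ} (ha : 0 < a) :
    IsSLC 0 (μ.map fun x => a⁻¹ • x) := by
  obtain ⟨ρ, hm, h0, rfl, hρ⟩ := h
  set c : ℝ := |((a⁻¹) ^ finrank ℝ (Rn n))⁻¹| with hc
  have hc0 : 0 < c := abs_pos.2 (inv_ne_zero (pow_ne_zero _ (inv_ne_zero ha.ne')))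
  have hgm : Measurable fun x : Rn n => ρ (a • x) := hm.comp (measurable_const_smul a)
  refine ⟨fun x => c * ρ (a • x), hgm.const_mul c, fun x => mul_nonneg hc0.le (h0 _), ?_,
    fun x y l hl0 hl1 => ?_⟩
  · refine Measure.ext fun E hE => ?_
    have hsm : Measurable fun x : Rn n => a⁻¹ • x := measurable_const_smul _
    rw [Measure.map_apply hsm hE, withDensity_apply _ (hsm hE), withDensity_apply _ hE]
    simp only [ENNReal.ofReal_mul hc0.le]
    rw [lintegral_const_mul' _ _ ENNReal.ofReal_ne_top]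
    have e : ∫⁻ x in (fun x => a⁻¹ • x) ⁻¹' E, ENNReal.ofReal (ρ x)
        = ∫⁻ y in E, ENNReal.ofReal (ρ (a • y)) ∂(Measure.map (fun x : Rn n => a⁻¹ • x) volume) := by
      rw [setLIntegral_map hE hgm.ennreal_ofReal hsm]
      simp only [smul_smul, mul_inv_cancel₀ ha.ne', one_smul]
    rw [e, Measure.map_addHaar_smul volume (inv_ne_zero ha.ne'), Measure.restrict_smul,
      lintegral_smul_measure, smul_eq_mul]
  · have h1 := hρ (a • x) (a • y) l hl0 hl1
    simp only [zero_div, zero_mul, Real.exp_zero, mul_one] at h1 ⊢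
    rw [Real.mul_rpow hc0.le (h0 _), Real.mul_rpow hc0.le (h0 _), mul_mul_mul_comm,
      ← Real.rpow_add hc0, sub_add_cancel, Real.rpow_one, smul_add, smul_comm a (1 - l),
      smul_comm a l]
    exact mul_le_mul_of_nonneg_left h1 hc0.le

/-- Truncation to a ball keeps log-concavity. -/
lemma slc_restrict {μ : Measure (Rn n)} (h : IsSLC 0 μ) {s : Set (Rn n)} (hs : MeasurableSet s)
    (hconv : Convex ℝ s) {c : ℝ} (hc : 0 < c) :
    IsSLC 0 (ENNReal.ofReal c • μ.restrict s) := by
  obtain ⟨ρ, hm, h0, rfl, hρ⟩ := h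
  refine ⟨fun x => c * s.indicator ρ x, (hm.indicator hs).const_mul c,
    fun x => mul_nonneg hc.le (Set.indicator_nonneg (fun y _ => h0 y) x), ?_,
    fun x y l hl0 hl1 => ?_⟩
  · rw [restrict_withDensity hs, ← withDensity_indicator hs,
      ← withDensity_smul _ (hm.ennreal_ofReal.indicator hs)]
    congr 1
    funext x
    by_cases hx : x ∈ s <;> simp [hx, ENNReal.ofReal_mul hc.le]
  · have hz : 0 ≤ c * s.indicator ρ ((1 - l) • x + l • y) :=
      mul_nonneg hc.le (Set.indicator_nonneg (fun w _ => h0 w) _)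
    simp only [zero_div, zero_mul, Real.exp_zero, mul_one]
    by_cases hx : x ∈ s
    · by_cases hy : y ∈ s
      · rw [Set.indicator_of_mem hx, Set.indicator_of_mem hy,
          Set.indicator_of_mem (hconv hx hy (sub_pos.2 hl1).le hl0.le (by ring)),
          Real.mul_rpow hc.le (h0 _), Real.mul_rpow hc.le (h0 _), mul_mul_mul_comm,
          ← Real.rpow_add hc, sub_add_cancel, Real.rpow_one]
        have h1 := hρ x y l hl0 hl1
        simp only [zero_div, zero_mul, Real.exp_zero, mul_one] at h1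
        exact mul_le_mul_of_nonneg_left h1 hc.le
      · rw [Set.indicator_of_notMem hy, mul_zero, Real.zero_rpow hl0.ne', mul_zero]
        exact hz
    · rw [Set.indicator_of_notMem hx, mul_zero, Real.zero_rpow (sub_pos.2 hl1).ne', zero_mul]
      exact hz

/-- Removing the bounded support hypothesis. -/
lemma main_unbdd {C : ℝ} (hC : ∀ (n : ℕ) (μ : Measure (Rn n)), 1 ≤ n →
      IsProbabilityMeasure μ → IsSLC 0 μ → BddSupp μ → SubG μ →
      ∀ f, Test f → entropy μ (fun x => f x ^ 2) ≤ C * (n : ℝ) ^ ((1 : ℝ) / 3) * energy μ f)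
    (hn : 1 ≤ n) {μ : Measure (Rn n)} [IsProbabilityMeasure μ] (hμ : IsSLC 0 μ)
    (hS : ∀ v : Rn n, ‖v‖ = 1 → ∫⁻ x, ENNReal.ofReal (Real.exp (⟪x, v⟫ ^ 2)) ∂μ ≤ 2)
    {f : Rn n → ℝ} (hf : Test f) :
    entropy μ (fun x => f x ^ 2) ≤ C * (n : ℝ) ^ ((1 : ℝ) / 3) * energy μ f := by
  set B : ℕ → Set (Rn n) := fun k => Metric.closedBall 0 k with hB
  have hBm : ∀ k, MeasurableSet (B k) := fun k => measurableSet_closedBall
  have hmono : Monotone B := fun i j hij => Metric.closedBall_subset_closedBall (by exact_mod_cast hij)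
  have hU : ⋃ k, B k = Set.univ := Metric.iUnion_closedBall_nat 0
  have hlim : Tendsto (fun k => μ.real (B k)) atTop (𝓝 1) := by
    have h := tendsto_measure_iUnion_atTop (μ := μ) hmono
    rw [hU, measure_univ] at h
    simpa [measureReal_def, Function.comp_def] using
      (ENNReal.tendsto_toReal ENNReal.one_ne_top).comp h
  set ν : ℕ → Measure (Rn n) := fun k => ENNReal.ofReal (μ.real (B k))⁻¹ • μ.restrict (B k) with hν
  have hint : ∀ {g : Rn n → ℝ}, Integrable g μ →
      Tendsto (fun k => ∫ x, g x ∂ν k) atTop (𝓝 (∫ x, g x ∂μ)) := by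
    intro g hg
    have h := tendsto_setIntegral_of_monotone hBm hmono (f := g) (μ := μ)
      (by rw [hU]; exact hg.integrableOn)
    rw [hU, setIntegral_univ] at h
    have h2 := (hlim.inv₀ one_ne_zero).mul h
    rw [inv_one, one_mul] at h2
    refine h2.congr fun k => ?_
    simp only [hν, integral_smul_measure, ENNReal.toReal_ofReal (inv_nonneg.2 measureReal_nonneg),
      smul_eq_mul]
  obtain ⟨hfc, M, hM⟩ := id hf
  have hM0 : 0 ≤ M := (abs_nonneg _).trans (hM 0).1
  have hf2i : Integrable (fun x => f x ^ 2) μ :=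
    Integrable.of_bound (hfc.continuous.pow 2).aestronglyMeasurable (M ^ 2) (ae_of_all _ fun x => by
      rw [Real.norm_eq_abs, abs_pow]; exact pow_le_pow_left₀ (abs_nonneg _) (hM x).1 2)
  obtain ⟨L, hL⟩ := (isCompact_Icc (a := (0 : ℝ)) (b := M ^ 2)).exists_bound_of_continuousOn
    Real.continuous_mul_log.continuousOn
  have hfli : Integrable (fun x => f x ^ 2 * Real.log (f x ^ 2)) μ :=
    Integrable.of_bound (Real.continuous_mul_log.comp (hfc.continuous.pow 2)).aestronglyMeasurable L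
      (ae_of_all _ fun x => hL _ ⟨sq_nonneg _, by
        rw [← sq_abs]; exact pow_le_pow_left₀ (abs_nonneg _) (hM x).1 2⟩)
  have hdi : Integrable (fun x => ‖fderiv ℝ f x‖ ^ 2) μ :=
    Integrable.of_bound ((hfc.continuous_fderiv one_ne_zero).norm.pow 2).aestronglyMeasurable (M ^ 2)
      (ae_of_all _ fun x => by
        rw [Real.norm_eq_abs, abs_pow, abs_norm]; exact pow_le_pow_left₀ (norm_nonneg _) (hM x).2.1 2)
  have he : Tendsto (fun k => entropy (ν k) fun x => f x ^ 2) atTop
      (𝓝 (entropy μ fun x => f x ^ 2)) :=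
    (hint hfli).sub ((Real.continuous_mul_log.tendsto _).comp (hint hf2i))
  have hen : Tendsto (fun k => energy (ν k) f) atTop (𝓝 (energy μ f)) := hint hdi
  refine le_of_tendsto_of_tendsto he (hen.const_mul _) ?_
  filter_upwards [hlim.eventually (eventually_ge_nhds (by norm_num : (1 : ℝ) / 2 < 1))] with k hk
  have hp : 0 < μ.real (B k) := by linarith
  have hc : 0 < (μ.real (B k))⁻¹ := inv_pos.2 hp
  have hprob : IsProbabilityMeasure (ν k) := ⟨by
    simp only [hν, Measure.smul_apply, Measure.restrict_apply_univ, smul_eq_mul]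
    rw [← ofReal_measureReal (measure_ne_top μ (B k)), ← ENNReal.ofReal_mul hc.le,
      inv_mul_cancel₀ hp.ne', ENNReal.ofReal_one]⟩
  refine hC n (ν k) hn hprob (slc_restrict hμ (hBm k) (convex_closedBall 0 _) hc) ⟨k, ?_⟩
    (fun v hv => ?_) f hf
  · have : ∀ᵐ x ∂μ.restrict (B k), ‖x‖ ≤ k :=
      (ae_restrict_mem (hBm k)).mono fun x hx => by simpa [hB] using hx
    exact Measure.ae_smul_measure this _
  · simp only [hν, lintegral_smul_measure, smul_eq_mul]
    calc ENNReal.ofReal (μ.real (B k))⁻¹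
          * ∫⁻ x in B k, ENNReal.ofReal (Real.exp (⟪x, v⟫ ^ 2)) ∂μ
        ≤ ENNReal.ofReal 2 * 2 := mul_le_mul' (ENNReal.ofReal_le_ofReal (by
            rw [inv_le_comm₀ hp (by norm_num)]; linarith))
          ((setLIntegral_le_lintegral _ _).trans (hS v hv))
      _ = 4 := by rw [ENNReal.ofReal_ofNat]; norm_num

/-- Smooth compactly supported functions are test functions. -/
lemma test_of_compact {f : Rn n → ℝ} (hf : ContDiff ℝ 2 f) (hs : HasCompactSupport f) : Test f := by
  have hd : ContDiff ℝ 1 (fderiv ℝ f) := hf.fderiv_right (by norm_num)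
  have hds : HasCompactSupport (fderiv ℝ f) := hs.fderiv (𝕜 := ℝ)
  obtain ⟨M1, h1⟩ := hs.exists_bound_of_continuous hf.continuous
  obtain ⟨M2, h2⟩ := hds.exists_bound_of_continuous hd.continuous
  obtain ⟨K, hK⟩ := hd.lipschitzWith_of_hasCompactSupport hds one_ne_zero
  refine ⟨hf.of_le (by norm_num), max M1 (max M2 K), fun x => ⟨?_, ?_, fun y => ?_⟩⟩
  · exact (h1 x).trans (le_max_left _ _)
  · exact (h2 x).trans ((le_max_left _ _).trans (le_max_right _ _))
  · refine (hK.norm_sub_le x y).trans (mul_le_mul_of_nonneg_right ?_ (norm_nonneg _))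
    exact (le_max_right _ _).trans (le_max_right _ _)

/-- `MainBdd` gives the full statement. -/
theorem main_general (hB : MainBdd) :
    ∃ C : ℝ, 0 < C ∧ ∀ (n : ℕ), 1 ≤ n → ∀ ρ : Rn n → ℝ, Measurable ρ → (∀ x, 0 ≤ ρ x) →
      ConcaveOn ℝ {x | 0 < ρ x} (fun x => Real.log (ρ x)) →
      IsProbabilityMeasure (volume.withDensity fun x => ENNReal.ofReal (ρ x)) →
      ∀ a : ℝ, 0 < a →
      (∀ v : Rn n, ‖v‖ = 1 → ∫⁻ x, ENNReal.ofReal (Real.exp (⟪x, v⟫ ^ 2 / a ^ 2))
          ∂(volume.withDensity fun x => ENNReal.ofReal (ρ x)) ≤ 2) →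
      ∀ f : Rn n → ℝ, ContDiff ℝ 2 f → HasCompactSupport f →
        entropy (volume.withDensity fun x => ENNReal.ofReal (ρ x)) (fun x => f x ^ 2)
          ≤ C * (n : ℝ) ^ ((1 : ℝ) / 3) * a ^ 2
            * energy (volume.withDensity fun x => ENNReal.ofReal (ρ x)) f := by
  obtain ⟨C, hC0, hC⟩ := hB
  refine ⟨C, hC0, fun n hn ρ hm h0 hc hp a ha hS f hf hfs => ?_⟩
  set μ := volume.withDensity fun x => ENNReal.ofReal (ρ x) with hμ
  set e : Rn n ≃ₜ Rn n := Homeomorph.smulOfNeZero a⁻¹ (inv_ne_zero ha.ne') with he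
  have hem : Measurable fun x : Rn n => a⁻¹ • x := measurable_const_smul _
  set ν := μ.map fun x => a⁻¹ • x with hν
  have hνp : IsProbabilityMeasure ν := Measure.isProbabilityMeasure_map hem.aemeasurable
  have hνS : ∀ v : Rn n, ‖v‖ = 1 → ∫⁻ x, ENNReal.ofReal (Real.exp (⟪x, v⟫ ^ 2)) ∂ν ≤ 2 := by
    intro v hv
    rw [hν, lintegral_map (by fun_prop) hem]
    refine le_trans (le_of_eq (lintegral_congr fun x => ?_)) (hS v hv)
    rw [real_inner_smul_left, mul_pow, inv_pow, div_eq_inv_mul]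
  set g : Rn n → ℝ := fun y => f (a • y) with hg
  have hgc : ContDiff ℝ 2 g := hf.comp (contDiff_const_smul a)
  have hgs : HasCompactSupport g := hfs.comp_homeomorph (Homeomorph.smulOfNeZero a ha.ne')
  have hfg : ∀ x, g (a⁻¹ • x) = f x := fun x => by simp [hg, smul_smul, mul_inv_cancel₀ ha.ne']
  have hν' : ∀ h : Rn n → ℝ, Continuous h → ∫ y, h y ∂ν = ∫ x, h (a⁻¹ • x) ∂μ := fun h hh =>
    integral_map hem.aemeasurable hh.aestronglyMeasurable
  have key := main_unbdd hC hn (slc_map_smul (slc_of_logconcave hm h0 hc) ha) hνS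
    (test_of_compact hgc hgs)
  have hent : entropy ν (fun y => g y ^ 2) = entropy μ (fun x => f x ^ 2) := by
    unfold entropy
    rw [hν' (fun y => g y ^ 2 * Real.log (g y ^ 2))
        (Real.continuous_mul_log.comp (hgc.continuous.pow 2)),
      hν' (fun y => g y ^ 2) (hgc.continuous.pow 2)]
    simp only [hfg]
  have hd : ∀ y, fderiv ℝ g y = a • fderiv ℝ f (a • y) := fun y => fderiv_comp_smul a
  have hen : energy ν g = a ^ 2 * energy μ f := by
    unfold energy
    rw [hν' (fun y => ‖fderiv ℝ g y‖ ^ 2) ((hgc.continuous_fderiv two_ne_zero).norm.pow 2),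
      ← integral_const_mul]
    refine integral_congr_ae (ae_of_all _ fun x => ?_)
    simp only [hd, smul_smul, mul_inv_cancel₀ ha.ne', one_smul, norm_smul, mul_pow,
      Real.norm_eq_abs, sq_abs]
  rw [hent, hen] at key
  exact key.trans (le_of_eq (by ring))

end Vale.Agent.P245.M9
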