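import Vale.Agent.P245.Defs

/-!
# P245, M9: combining the two concentration bounds (compactly supported case)
-/

namespace Vale.Agent.P245.M9

open MeasureTheory Real
open scoped RealInnerProductSpace ENNReal

/-- `(1 + log (n + 1))^4` is at most a multiple of `n^(1/3)`. -/
lemma log_pow_le {n : ℕ} (hn : 1 ≤ n) :
    ((1 + log ((n : ℝ) + 1)) ^ 2) ^ 2 ≤ 25 ^ 4 * (n : ℝ) ^ ((1 : ℝ) / 3) := by
  have h1 : (1 : ℝ) ≤ n := by exact_mod_cast hn
  have h0 : (0 : ℝ) < (n : ℝ) + 1 := by linarith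
  have hl0 : 0 ≤ log ((n : ℝ) + 1) := log_nonneg (by linarith)
  have ha : (1 : ℝ) ≤ (n : ℝ) ^ ((1 : ℝ) / 12) := one_le_rpow h1 (by norm_num)
  have hl : log ((n : ℝ) + 1) ≤ 24 * (n : ℝ) ^ ((1 : ℝ) / 12) := by
    refine (log_le_rpow_div h0.le (show (0 : ℝ) < 1 / 12 by norm_num)).trans ?_
    have h2 : ((n : ℝ) + 1) ^ ((1 : ℝ) / 12) ≤ (2 * (n : ℝ)) ^ ((1 : ℝ) / 12) :=
      rpow_le_rpow h0.le (by linarith) (by norm_num)
    rw [mul_rpow (by norm_num) (Nat.cast_nonneg n)] at h2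
    have h3 : (2 : ℝ) ^ ((1 : ℝ) / 12) ≤ 2 := by
      calc (2 : ℝ) ^ ((1 : ℝ) / 12) ≤ (2 : ℝ) ^ (1 : ℝ) :=
            rpow_le_rpow_of_exponent_le (by norm_num) (by norm_num)
        _ = 2 := rpow_one 2
    have h4 := h2.trans (mul_le_mul_of_nonneg_right h3 (by positivity))
    rw [div_le_iff₀ (by norm_num)]
    linarith
  have h5 : 1 + log ((n : ℝ) + 1) ≤ 25 * (n : ℝ) ^ ((1 : ℝ) / 12) := by linarith
  rw [← pow_mul]
  calc (1 + log ((n : ℝ) + 1)) ^ (2 * 2) ≤ (25 * (n : ℝ) ^ ((1 : ℝ) / 12)) ^ (2 * 2) :=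
        pow_le_pow_left₀ (by linarith) h5 _
    _ = 25 ^ 4 * (n : ℝ) ^ ((1 : ℝ) / 3) := by
        rw [mul_pow, ← rpow_natCast (((n : ℝ)) ^ ((1 : ℝ) / 12)), ← rpow_mul (Nat.cast_nonneg n)]
        norm_num

theorem mainBdd (hE : ExpConc) (hR : RenyiConc) (hL : LsiOfConc) : MainBdd := by
  obtain ⟨c1, C1, hc1, hC1, h1⟩ := hE
  obtain ⟨c2, C2, hc2, hC2, h2⟩ := hR
  set κ := max 1 (max (1 / c1) (1 / c2)) with hκ
  set C₀ := max (max C1 C2) (exp (C1 ^ 2 * 25 ^ 4)) with hC₀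
  have hC₀p : 0 < C₀ := (exp_pos _).trans_le (le_max_right _ _)
  obtain ⟨C, hC, h⟩ := hL C₀ hC₀p
  have hκ1 : 1 ≤ κ := le_max_left _ _
  refine ⟨C * κ, by positivity, fun n μ hn hμ hslc hbdd hS f hf => ?_⟩
  set a := (n : ℝ) ^ ((1 : ℝ) / 3) with ha
  have hn1 : (1 : ℝ) ≤ n := by exact_mod_cast hn
  have ha1 : 1 ≤ a := one_le_rpow hn1 (by norm_num)
  have ha3 : a ^ 3 = n := by
    rw [ha, ← rpow_natCast, ← rpow_mul (Nat.cast_nonneg n)]
    norm_num
  have hK : 1 ≤ κ * a := one_le_mul_of_one_le_of_one_le hκ1 ha1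
  have hκc : ∀ {c : ℝ}, 0 < c → 1 / c ≤ κ → ∀ {w : ℝ}, 0 ≤ w → w / (κ * a) ≤ c * (w / a) := by
    intro c hc hck w hw
    rw [div_le_iff₀ hc] at hck
    calc w / (κ * a) = 1 / κ * (w / a) := by field_simp
      _ ≤ c * (w / a) := by
          refine mul_le_mul_of_nonneg_right ?_ (by positivity)
          rw [div_le_iff₀ (by positivity), mul_comm]
          exact hck
  refine (h n (κ * a) μ hK hμ hslc hbdd (fun g hg hg1 hg0 hmed r hr => ?_) f hf).trans_eq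
    (by ring)
  rcases lt_or_ge r (C1 * (1 + log ((n : ℝ) + 1)) ^ 2) with hsmall | hbig
  · refine (prob_le_one (μ := μ)).trans ?_
    rw [← ENNReal.ofReal_one]
    refine ENNReal.ofReal_le_ofReal ?_
    have hq : r ^ 2 / (κ * a) ≤ C1 ^ 2 * 25 ^ 4 := by
      rw [div_le_iff₀ (by positivity)]
      have h3 := pow_le_pow_left₀ hr hsmall.le 2
      rw [mul_pow] at h3
      refine h3.trans ((mul_le_mul_of_nonneg_left (log_pow_le hn) (sq_nonneg C1)).trans ?_)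
      rw [← ha, ← mul_assoc]
      exact mul_le_mul_of_nonneg_left (le_mul_of_one_le_left (by positivity) hκ1) (by positivity)
    calc (1 : ℝ) = exp (C1 ^ 2 * 25 ^ 4) * exp (-(C1 ^ 2 * 25 ^ 4)) := by
          rw [← exp_add, add_neg_cancel, exp_zero]
      _ ≤ C₀ * exp (-r ^ 2 / (κ * a)) := by
          refine mul_le_mul (le_max_right _ _) (exp_le_exp.2 ?_) (exp_pos _).le hC₀p.le
          rw [neg_div]
          exact neg_le_neg hq
  rcases le_or_gt r a with hra | hra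
  · refine (h1 n μ hμ hslc hbdd hS g hg hg1 hg0 hmed r hbig).trans (ENNReal.ofReal_le_ofReal ?_)
    refine mul_le_mul ((le_max_left _ _).trans (le_max_left _ _)) (exp_le_exp.2 ?_) (exp_pos _).le
      hC₀p.le
    have h4 := hκc hc1 ((le_max_left _ _).trans (le_max_right _ _)) (sq_nonneg r)
    have h5 : c1 * (r ^ 2 / a) ≤ c1 * r := by
      refine mul_le_mul_of_nonneg_left ?_ hc1.le
      rw [div_le_iff₀ (by positivity), sq]
      exact mul_le_mul_of_nonneg_left hra hr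
    rw [neg_div]
    linarith
  · refine (h2 n μ hμ hslc hbdd hS g hg hg1 hg0 hmed r hr).trans (ENNReal.ofReal_le_ofReal ?_)
    refine mul_le_mul ((le_max_right _ _).trans (le_max_left _ _)) (exp_le_exp.2 ?_) (exp_pos _).le
      hC₀p.le
    have h4 := hκc hc2 ((le_max_right _ _).trans (le_max_right _ _)) (sq_nonneg r)
    have h5 : c2 * (r ^ 2 / a) ≤ c2 * min (r ^ 4 / n) (r ^ 2) := by
      refine mul_le_mul_of_nonneg_left (le_min ?_ (div_le_self (sq_nonneg r) ha1)) hc2.le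
      rw [← ha3, div_le_div_iff₀ (by positivity) (by positivity)]
      have h6 : a ^ 2 ≤ r ^ 2 := pow_le_pow_left₀ (by linarith) hra.le 2
      calc r ^ 2 * a ^ 3 = r ^ 2 * a ^ 2 * a := by ring
        _ ≤ r ^ 2 * r ^ 2 * a := by gcongr
        _ = r ^ 4 * a := by ring
    rw [neg_div]
    linarith

end Vale.Agent.P245.M9
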